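import Vale.Agent.P011UGA.IF3
import Mathlib.Algebra.Category.Grp.Injective

/-!
Equivariant characters of Galois lattices.
-/

set_option autoImplicit false
set_option linter.all false

namespace Vale.Agent.P011UEQ

open Polynomial

theorem der0 {K J : Type} [Field K] (s : Finset J) (a : J → K) (m : J → ℕ) :
    eval 0 (∏ j ∈ s, (1 + C (a j) * X) ^ m j) = 1 ∧
      eval 0 (derivative (∏ j ∈ s, (1 + C (a j) * X) ^ m j)) = ∑ j ∈ s, m j * a j := by
  classical
  induction s using Finset.induction_on with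
  | empty => simp
  | insert j s hj ih =>
    rw [Finset.prod_insert hj, Finset.sum_insert hj, derivative_mul, eval_add, eval_mul, eval_mul,
      eval_mul, ih.1, ih.2]
    simp [derivative_pow]

/-- Multiplicative independence of automorphisms. -/
theorem artin {k K J : Type} [Field k] [Field K] [CharZero K] [Algebra k K] [Fintype J]
    (F : Subring K) (σ : J → K ≃ₐ[k] K) (hσ : ∀ i j, (∀ x ∈ F, σ i x = σ j x) → i = j) (m : J → ℤ)
    (h : ∀ u ∈ F, u ≠ 0 → ∏ j, σ j u ^ m j = 1) (j : J) : m j = 0 := by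
  refine Int.cast_eq_zero.1 (P011LD.dedekind F.toSubmonoid σ hσ Finset.univ (fun j => (m j : K))
    (fun w hw => ?_) j (Finset.mem_univ _))
  have e : ∏ j, (1 + C (σ j w) * X) ^ (m j).toNat = ∏ j, (1 + C (σ j w) * X) ^ (-m j).toNat := by
    refine eq_of_infinite_eval_eq _ _ (((Set.infinite_range_of_injective
      (Nat.cast_injective (R := K))).diff (Set.finite_singleton (-w⁻¹))).mono ?_)
    rintro _ ⟨⟨n, rfl⟩, hn⟩
    have u0 : 1 + w * n ≠ 0 := fun e => hn (by
      have w0 : w ≠ 0 := fun e' => by simp [e'] at e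
      rw [Set.mem_singleton_iff, eq_neg_iff_add_eq_zero, ← mul_right_inj' w0, mul_add,
        mul_inv_cancel₀ w0, add_comm, e, mul_zero])
    have := h _ (F.add_mem F.one_mem (F.mul_mem hw (natCast_mem F n))) u0
    have a : ∀ j, eval (n : K) (1 + C (σ j w) * X) = σ j (1 + w * n) := fun j => by simp
    have b : ∀ j, σ j (1 + w * n) ≠ 0 := fun j => (_root_.map_ne_zero _).2 u0
    simp only [Set.mem_setOf_eq, eval_prod, eval_pow, a]
    refine Eq.trans ?_ ((congrArg (· * _) this).trans (one_mul _))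
    rw [← Finset.prod_mul_distrib]
    refine Finset.prod_congr rfl fun j _ => ?_
    rw [← zpow_natCast, ← zpow_natCast, ← zpow_add₀ (b j)]
    exact congrArg _ (by omega)
  have := (der0 Finset.univ (fun j => σ j w) fun j => (m j).toNat).2.symm.trans
    ((congrArg (fun p => eval 0 (derivative p)) e).trans
      (der0 Finset.univ (fun j => σ j w) fun j => (-m j).toNat).2)
  rw [← sub_eq_zero, ← Finset.sum_sub_distrib] at this
  refine (Finset.sum_congr rfl fun j _ => ?_).trans this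
  rw [← sub_mul, ← Int.cast_natCast (m j).toNat, ← Int.cast_natCast (-m j).toNat, ← Int.cast_sub,
    Int.toNat_sub_toNat_neg]

/-- Rational powers. -/
theorem ratpow {K : Type} [Field K] [CharZero K] [IsSepClosed K] (u : Kˣ) :
    ∃ ψ : Multiplicative ℚ →* Kˣ, ∀ n : ℤ, ψ (.ofAdd n) = u ^ n := by
  have d : DivisibleBy (Additive Kˣ) ℤ := divisibleByOfSMulRightSurj _ _ fun {n} hn a => by
    have : NeZero ((n.natAbs : ℕ) : K) := ⟨Nat.cast_ne_zero.2 (Int.natAbs_ne_zero.2 hn)⟩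
    obtain ⟨z, hz⟩ := IsSepClosed.exists_pow_nat_eq (a.toMul : K) n.natAbs
    have z0 : z ≠ 0 := fun e => a.toMul.ne_zero (by
      rw [← hz, e, zero_pow (Int.natAbs_ne_zero.2 hn)])
    have e : Units.mk0 z z0 ^ (n.natAbs : ℤ) = a.toMul := Units.ext (by
      rw [zpow_natCast, Units.val_pow_eq_pow_val, Units.val_mk0, hz])
    rcases Int.natAbs_eq n with k | k
    · exact ⟨.ofMul (Units.mk0 z z0), (congrArg (Units.mk0 z z0 ^ ·) k).trans e⟩
    · exact ⟨.ofMul (Units.mk0 z z0)⁻¹, (congrArg ((Units.mk0 z z0)⁻¹ ^ ·) k).trans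
        ((inv_zpow' _ _).trans ((congrArg _ (neg_neg _)).trans e))⟩
  obtain ⟨ψ, hψ⟩ := (Module.Baer.of_divisible (Additive Kˣ)).extension_property_addMonoidHom
    (Int.castAddHom ℚ) Int.cast_injective (zmultiplesHom _ (.ofMul u))
  exact ⟨ψ.toMultiplicativeLeft, fun n => congrArg Additive.toMul (DFunLike.congr_fun hψ n)⟩

theorem form {K : Type} [Field K] [CharZero K] (S : Finset K) {μ : K} (h : μ ≠ 0) :
    ∃ f : K →+ ℚ, f μ ≠ 0 ∧ ∀ x ∈ AddSubgroup.closure (S : Set K), ∃ n : ℤ, f x = n := by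
  classical
  obtain ⟨f, hf⟩ := not_forall.1 (mt (Module.forall_dual_apply_eq_zero_iff ℚ μ).1 h)
  obtain ⟨b, hb⟩ := IsLocalization.exist_integer_multiples_of_finset (nonZeroDivisors ℤ) (S.image f)
  refine ⟨((b : ℤ) • f).toAddMonoidHom, smul_ne_zero (nonZeroDivisors.ne_zero b.2) hf,
    fun x hx => ?_⟩
  induction hx using AddSubgroup.closure_induction with
  | mem x hx => exact (hb _ (Finset.mem_image_of_mem f hx)).imp fun n e => e.symm
  | zero => exact ⟨0, by simp⟩
  | add x y _ _ hx hy =>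
    obtain ⟨n, hn⟩ := hx
    obtain ⟨m, hm⟩ := hy
    exact ⟨n + m, by rw [map_add, hn, hm, Int.cast_add]⟩
  | neg x _ hx =>
    obtain ⟨n, hn⟩ := hx
    exact ⟨-n, by rw [map_neg, hn, Int.cast_neg]⟩

theorem eqc : P011UGA.EQC := by
  intro k K _ _ _ _ _ S hS μ hμ μ0 e e0
  classical
  have : CharZero K := charZero_of_injective_algebraMap (algebraMap k K).injective
  have : IsSepClosed K := IsSepClosure.sep_closed k
  obtain ⟨f, f0, hf⟩ := form S μ0
  choose! n hn using hf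
  let N : Subgroup (K ≃ₐ[k] K) :=
    { carrier := {σ | ∀ x ∈ S, σ x = x}
      mul_mem' := fun {σ τ} hσ hτ x hx => by
        show σ (τ x) = x
        rw [hτ x hx, hσ x hx]
      one_mem' := fun _ _ => rfl
      inv_mem' := fun {σ} hσ x hx => σ.injective (by
        rw [hσ x hx]; exact σ.apply_symm_apply x) }
  have hq : ∀ q q' : (K ≃ₐ[k] K) ⧸ N, (∀ x ∈ S, q.out x = q'.out x) → q = q' := fun q q' e => by
    rw [← q.out_eq', ← q'.out_eq', QuotientGroup.eq]
    exact fun x hx => q.out.injective ((q.out.apply_symm_apply _).trans (e x hx).symm)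
  have : Finite ((K ≃ₐ[k] K) ⧸ N) := Finite.of_injective
    (fun q => fun x : S => (⟨q.out x, hS _ _ x.2⟩ : S)) fun q q' e =>
    hq q q' fun x hx => congrArg Subtype.val (congrFun e ⟨x, hx⟩)
  have := Fintype.ofFinite ((K ≃ₐ[k] K) ⧸ N)
  let F : Subring K :=
    { carrier := {c | ∀ σ ∈ N, σ c = c}
      mul_mem' := fun hc hd σ s => by rw [map_mul, hc σ s, hd σ s]
      one_mem' := fun σ _ => map_one _
      add_mem' := fun hc hd σ s => by rw [map_add, hc σ s, hd σ s]
      zero_mem' := fun σ _ => map_zero _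
      neg_mem' := fun hc σ s => by rw [map_neg, hc σ s] }
  have sF : ∀ x ∈ S, x ∈ F := fun x hx σ s => s x hx
  have cl : ∀ σ : K ≃ₐ[k] K, ∀ x ∈ AddSubgroup.closure (S : Set K),
      σ x ∈ AddSubgroup.closure (S : Set K) := fun σ x hx =>
    (AddSubgroup.closure_le ((AddSubgroup.closure (S : Set K)).comap (σ : K →+ K))).2
      (fun y hy => AddSubgroup.subset_closure (hS σ y hy)) hx
  have μF : μ ∈ F := (AddSubgroup.closure_le F.toAddSubgroup).2 sF hμ
  obtain ⟨u, uF, u0, hu⟩ : ∃ u ∈ F, u ≠ 0 ∧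
      ∏ q : (K ≃ₐ[k] K) ⧸ N, q.out u ^ (n (q.out⁻¹ μ) * e) ≠ 1 := by
    by_contra c
    have := artin F (fun q : (K ≃ₐ[k] K) ⧸ N => q.out) (fun q q' e => hq q q' fun x hx =>
      e x (sF x hx)) (fun q => n (q.out⁻¹ μ) * e) (fun u uF u0 => by_contra fun h =>
        c ⟨u, uF, u0, h⟩) ((1 : K ≃ₐ[k] K) : _ ⧸ N)
    obtain ⟨a, ha⟩ := QuotientGroup.mk_out_eq_mul N 1
    rw [ha, one_mul, μF _ (N.inv_mem a.2), mul_eq_zero, Int.natCast_eq_zero] at this
    exact f0 (by rw [hn μ hμ, this.resolve_right e0.ne', Int.cast_zero])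
  choose ψ hψ using fun q : (K ≃ₐ[k] K) ⧸ N =>
    ratpow (Units.mk0 (q.out u) ((_root_.map_ne_zero _).2 u0))
  obtain ⟨χ, hχ⟩ : ∃ χ : Multiplicative K →* Kˣ, ∀ x ∈ AddSubgroup.closure (S : Set K),
      (χ (.ofAdd x) : K) = ∏ q : (K ≃ₐ[k] K) ⧸ N, q.out u ^ n (q.out⁻¹ x) := by
    refine ⟨∏ q, (ψ q).comp (f.comp ((q.out⁻¹ : K ≃ₐ[k] K) : K →+ K)).toMultiplicative,
      fun x hx => ?_⟩
    rw [MonoidHom.finsetProd_apply, Units.coe_prod]
    refine Finset.prod_congr rfl fun q _ => ?_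
    have : (ψ q).comp (f.comp ((q.out⁻¹ : K ≃ₐ[k] K) : K →+ K)).toMultiplicative (.ofAdd x) =
      ψ q (.ofAdd (f (q.out⁻¹ x))) := rfl
    rw [this, hn _ (cl _ x hx), hψ, Units.val_zpow_eq_zpow_val, Units.val_mk0]
  refine ⟨χ, fun σ x hx => ?_, fun c => hu ?_⟩
  · rw [hχ _ (AddSubgroup.subset_closure (hS σ x hx)), hχ _ (AddSubgroup.subset_closure hx),
      map_prod, ← Equiv.prod_comp (MulAction.toPerm σ)]
    refine Finset.prod_congr rfl fun q _ => ?_
    obtain ⟨a, ha⟩ := QuotientGroup.mk_out_eq_mul N (σ * q.out)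
    have : (MulAction.toPerm σ q).out = σ * q.out * a := by
      rw [← ha, MulAction.toPerm_apply, ← smul_eq_mul, MulAction.Quotient.coe_smul_out]
    rw [this, map_zpow₀, AlgEquiv.mul_apply, uF _ a.2, AlgEquiv.mul_apply, mul_inv_rev, mul_inv_rev,
      AlgEquiv.mul_apply, AlgEquiv.mul_apply, show σ⁻¹ (σ x) = x from σ.symm_apply_apply x,
      N.inv_mem a.2 _ (hS _ x hx)]
  · have := congrArg Units.val c
    rw [Units.val_pow_eq_pow_val, hχ μ hμ, ← Finset.prod_pow] at this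
    simpa only [zpow_mul, zpow_natCast, Units.val_one] using this

end Vale.Agent.P011UEQ
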